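import Vale.Agent.N069.Main

open TopologicalSpace Vale.Agent.P069 Vale.Agent.P069.H778 Vale.Agent.P069.JT

namespace Vale.Agent.Results.P069.A0AllExponents

theorem result :
    (∀ p : ℝ, 1 < p →
      ∃ (Z : Type) (_ : NormedAddCommGroup Z) (_ : NormedSpace ℝ Z) (c : ℝ), 0 < c ∧
        CompleteSpace Z ∧ SeparableSpace Z ∧ ¬ FiniteDimensional ℝ Z ∧ IsReflexive Z ∧
        ¬ AUCRenormable Z ∧
        (∀ t : ℝ, 0 < t →
          (((1 + c * t ^ p) ^ (1 / p) - 1 : ℝ) : EReal) ≤ amucModulus (normSeminorm ℝ Z) t ∧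
          ausModulus (normSeminorm ℝ Z) t ≤ (((1 + t ^ p) ^ (1 / p) - 1 : ℝ) : EReal)) ∧
        ∀ (k : ℕ) (D : ℝ), EmbedsWith (diamond k) Z D → (1 + c * k) ^ (1 / p) ≤ D) ∧
    ∀ (X : Type) [NormedAddCommGroup X] [NormedSpace ℝ X] [CompleteSpace X],
      ¬ FiniteDimensional ℝ X → IsReflexive X → ∀ N : Seminorm ℝ X, IsEquivNorm N →
        ∀ ε : ℝ, 0 < ε → ∃ δ : ℝ, 0 < δ ∧ ∀ t : ℝ, 0 < t → t < δ →
          amucModulus N t ≤ ((ε * t : ℝ) : EReal) :=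
  N069.main.2

end Vale.Agent.Results.P069.A0AllExponents
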