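import Vale.Agent.N069Q.Main

open Vale.Agent.N069Q

namespace Vale.Agent.Results.P069.A0Quotients

theorem result :
    ∀ (X : Type) [NormedAddCommGroup X] [NormedSpace ℝ X] [CompleteSpace X], Reflexive X →
      ∀ D₀ : ℝ, 12 < D₀ → List.TFAE [AUCable X,
        ∀ (Y : Submodule ℝ X) [IsClosed (Y : Set X)], AUCable (X ⧸ Y),
        ∀ (Y : Submodule ℝ X) [IsClosed (Y : Set X)], AMUCable (X ⧸ Y),
        ∀ (Y : Submodule ℝ X) [IsClosed (Y : Set X)], ¬ ∃ D, Diamonds (X ⧸ Y) D,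
        ∀ (Y : Submodule ℝ X) [IsClosed (Y : Set X)], ¬ Diamonds (X ⧸ Y) D₀] :=
  fun _ _ _ _ hX _ hD => tfae hX hD

end Vale.Agent.Results.P069.A0Quotients
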